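import Vale.Agent.P284.H402.R.Grp

/-!
# P284 (helper478), theorem T3⁺: consequences for groups without infinite Kazhdan subgroups and for groups
with the Haagerup property
-/

open scoped InnerProductSpace

noncomputable section

namespace Vale.Agent.P284.H478.T

open Vale.Agent.P284.H894.G Vale.Agent.P284.H213.T3 Vale.Agent.P284.H213.G
  Vale.Agent.P284.H119.Kaz Vale.Agent.P284.H402.R Vale.Agent.P284.H661.Grp

section
open Vale.Agent.P284.H894.F (VirtAbelianRank)
variable {Q : Type} [Group Q] {m r : ℕ}

/-- the Haagerup property passes to subgroups -/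
theorem Haagerup.subgroup (h : Haagerup Q) (K : Subgroup Q) : Haagerup K := by
  classical
  intro S ε hε
  obtain ⟨H, i1, i2, i3, π, ξ, hξ, hs, hc⟩ := h (S.image K.subtype) ε hε
  refine ⟨H, i1, i2, i3, π.comp K.subtype, ξ, hξ, fun s hs' => ?_, fun x y δ hδ => ?_⟩
  · exact hs _ (Finset.mem_image_of_mem _ hs')
  · refine Set.Finite.of_finite_image ?_ (Subtype.val_injective.injOn (s := _))
    refine (hc x y δ hδ).subset ?_
    rintro _ ⟨g, hg, rfl⟩
    exact hg

/-- A group isomorphic to a Kazhdan group with the Haagerup property is finite. -/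
theorem Kazhdan.finite (h : Kazhdan Q) (h' : Haagerup Q) : Finite Q :=
  PropertyT.finite (Q := Q) h h'

/-- **Criterion**: if all Kazhdan subgroups of `Q` are finite. -/
theorem rank_of_t3c0 (h : T3C0 Q r) (hs : ∀ K : Subgroup Q, PropertyT K → Finite K) :
    VirtAbelianRank Q r := by
  obtain ⟨G, m, χ, hG, hm, hχ, -, hK⟩ := h
  have e : χ.ker ≃* (χ.ker.map G.subtype) :=
    χ.ker.equivMapOfInjective G.subtype Subtype.val_injective
  have h1 : PropertyT (χ.ker.map G.subtype) := hK.of_equiv e
  have h2 : Finite (χ.ker.map G.subtype) := hs _ h1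
  have h3 : Finite χ.ker := Finite.of_injective e e.injective
  exact rank_mono (rank_of_fi G (rank_of_ext χ hχ h3)) hm

/-- groups with the Haagerup property -/
theorem rank_of_haagerup (h : T3C0 Q r) (hH : Haagerup Q) : VirtAbelianRank Q r :=
  rank_of_t3c0 h fun K hK => Kazhdan.finite hK (Haagerup.subgroup hH K)

/-- Kazhdan subgroups of virtually abelian groups are finite. -/
theorem finite_of_rank (h : VirtAbelianRank Q m) (K : Subgroup Q) (hK : PropertyT K) : Finite K := by
  have h1 : Folner Q := H837.folner_of_virtAbelianRank h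
  have h2 : Folner K := H446.QC.folner_subgroup h1 K
  by_contra hinf
  have : Infinite K := not_finite_iff_infinite.1 hinf
  exact H988.N.not_kazhdan_of_folner h2 hK

/-- **Criterion**, representations of the group -/
theorem iff_of_ptg (h : NSRep Q ∨ T3C0 Q r) :
    VirtAbelianRank Q r ↔ ¬ NSRep Q ∧ ∀ K : Subgroup Q, PropertyT K → Finite K := by
  constructor
  · intro h1
    exact ⟨not_nsRep h1, finite_of_rank h1⟩
  · rintro ⟨h1, h2⟩
    exact rank_of_t3c0 (h.resolve_left h1) h2

/-- groups with the Haagerup property -/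
theorem haagerup_of_ptg (h : NSRep Q ∨ T3C0 Q r) (hH : Haagerup Q) :
    NSRep Q ∨ VirtAbelianRank Q r :=
  h.imp_right fun h => rank_of_haagerup h hH

end

end Vale.Agent.P284.H478.T
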