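import Vale.Agent.P284.H478.T.Crit
import Vale.Agent.P284.H402.R.Fin

/-!
# P284 (helper478): the structure theorem T3⁺ for the quotients of the fundamental group of a special
compact Kähler manifold
-/

open scoped Manifold ContDiff Topology

noncomputable section

namespace Vale.Agent.P284.H478.T

open Vale.Agent.P272.K Vale.Agent.P284.H213.K Vale.Agent.P284.H213.N Vale.Agent.P284.H837.N
  Vale.Agent.P284.H894 Vale.Agent.P284.H894.G Vale.Agent.P284.H248 Vale.Agent.P284.H213.T3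
  Vale.Agent.P284.H402.R Vale.Agent.P284.H119.Kaz Vale.Agent.P284.H213.G
open Vale.Agent.P284.H894.F (VirtAbelianRank)

/-- A subgroup `G` of finite index of `Q` has an epimorphism onto `ℤ^m`, `m ≤ r`, with finitely generated
kernel with Kazhdan's property (T). -/
def KazhdanByAbelian (Q : Type) [Group Q] (r : ℕ) : Prop :=
  ∃ (G : Subgroup Q) (m : ℕ) (χ : G →* Multiplicative (Fin m → ℤ)), G.FiniteIndex ∧ m ≤ r ∧
    Function.Surjective χ ∧ Group.FG χ.ker ∧ H661.Grp.PropertyT χ.ker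

theorem kazhdanByAbelian_iff {Q : Type} [Group Q] {r : ℕ} :
    KazhdanByAbelian Q r ↔ T3C0 Q r := Iff.rfl

theorem rank_of_va {Q : Type} [Group Q] {r : ℕ} (h : NSRep Q ∨ T3C0 Q r)
    (h' : VirtuallyAbelian Q) : VirtAbelianRank Q r := by
  refine (iff_of_ptg h).2 ⟨not_nsRepV h', fun K hK => ?_⟩
  have h2 : Folner K := H446.QC.folner_subgroup (H837.folner_of_virtuallyAbelian h') K
  by_contra hinf
  have : Infinite K := not_finite_iff_infinite.1 hinf
  exact H988.N.not_kazhdan_of_folner h2 hK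

theorem va_of_rank {Q : Type} [Group Q] {r : ℕ} (h : VirtAbelianRank Q r) :
    VirtuallyAbelian Q := by
  obtain ⟨A, h3, h4, -⟩ := h
  exact ⟨A, h3, h4⟩

/-- **the structure theorem**, from T2 and T3⁺ -/
theorem struct_of {D : H213.Q.Cls} (h2 : MainPiK D PT2) (h3 : MainPiK D PTG) {n : ℕ} {X : Type}
    [TopologicalSpace X] [T2Space X] [CompactSpace X] [ConnectedSpace X] [ChartedSpace (Cm n) X]
    [IsManifold 𝓘(ℂ, Cm n) ω X] {w : Chart n X → Cm n → Matrix (Fin n) (Fin n) ℂ}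
    (hw : IsKahler w) (hD : D n X) (x : X) (Q : Type) [Group Q] (f : FundamentalGroup X x →* Q)
    (hf : Function.Surjective f) :
    (NSRep Q ∨ KazhdanByAbelian Q (2 * n)) ∧
    (VirtuallyAbelian Q ↔ ¬ NSRep Q ∧ ∀ K : Subgroup Q, H661.Grp.PropertyT K → Finite K) ∧
    (VirtuallyAbelian Q → VirtAbelianRank Q (2 * n)) ∧
    (H661.Grp.Haagerup Q → NSRep Q ∨ VirtuallyAbelian Q) ∧
    (H661.Grp.FiniteImages Q → H661.Grp.PropertyT Q) := by
  have h : NSRep Q ∨ T3C0 Q (2 * n) := h3 n X hD w hw x Q f hf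
  refine ⟨h, ⟨fun h' => (iff_of_ptg h).1 (rank_of_va h h'),
    fun h' => va_of_rank ((iff_of_ptg h).2 h')⟩, rank_of_va h,
    fun h' => (haagerup_of_ptg h h').imp_right va_of_rank, fun hQ => ?_⟩
  exact h2 n X hD w hw x Q f hf hQ

end Vale.Agent.P284.H478.T
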