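import Vale.Agent.P284.H338.IndQ

/-!
# P284 (helper478), T3⁺: property (T) passes to subgroups of finite index
-/

open scoped InnerProductSpace

noncomputable section

namespace Vale.Agent.P284.H478.T

open Vale.Agent.P284.H894.G Vale.Agent.P284.H119.Kaz Vale.Agent.P284.H338.Ind

/-- A Kazhdan group: normal subgroups with amenable quotient are Kazhdan. -/
theorem kazhdan_of_folner_quot {Γ : Type} [Group Γ] (h : Kazhdan Γ) (K : Subgroup Γ) [K.Normal]
    (hF : Folner (Γ ⧸ K)) : Kazhdan K := by
  by_contra hK
  obtain ⟨S, ε, hε, h⟩ := h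
  obtain ⟨H, i1, i2, i3, π, ξ, h1, h2, h3⟩ := exists_rep K hF hK (S : Set Γ) S.finite_toSet hε
  obtain ⟨η, hη, hη'⟩ := h H π ξ h1 fun s hs => h2 s hs
  exact hη (h3 η fun k _ => hη' k)

/-- **Property (T) passes to subgroups of finite index.** -/
theorem kazhdan_sub {Γ : Type} [Group Γ] (h : Kazhdan Γ) (K : Subgroup Γ) [K.FiniteIndex] :
    Kazhdan K := by
  have h1 : Kazhdan K.normalCore := kazhdan_of_folner_quot h K.normalCore folner_finite
  have hle : K.normalCore ≤ K := Subgroup.normalCore_le K
  have h2 : Kazhdan (K.normalCore.subgroupOf K) :=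
    h1.of_equiv (Subgroup.subgroupOfEquivOfLe hle).symm
  exact Kazhdan.of_finiteIndex (K.normalCore.subgroupOf K) h2

/-- `K` embeds as a subgroup of finite index of a Kazhdan group -/
theorem kazhdan_of_emb {A B : Type} [Group A] [Group B] (h : Kazhdan B) (f : A →* B)
    (hf : Function.Injective f) (hi : f.range.FiniteIndex) : Kazhdan A := by
  have h1 : Kazhdan f.range := kazhdan_sub h f.range
  exact h1.of_equiv (MonoidHom.ofInjective hf).symm

end Vale.Agent.P284.H478.T
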