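import Vale.Agent.P284.H650.T.Fin
import Vale.Agent.P284.H988.T.LFOF
import Vale.Agent.P284.H478.T.Fin

/-!
# P284 (helper478): theorem T3⁺ for special compact Kähler manifolds
-/

noncomputable section

namespace Vale.Agent.P284.H478.T

/-- **T3⁺**: every quotient `Q` of the fundamental group of a special compact Kähler manifold has a finite
dimensional real representation with non virtually solvable image, or a subgroup of finite index with an
epimorphism onto `ℤ^m`, `m ≤ 2 n`, whose kernel is finitely generated and has property (T). -/
theorem t3p : H213.K.MainPiK H213.N.spC H213.G.PTG := H650.T.t3p_of H988.T.lfoStmt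

end Vale.Agent.P284.H478.T
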